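import Vale.Agent.P113.Energy

namespace Vale.Agent.P113

open Set Primrec

/-! ### machines -/

def st (a : Machine × List ℕ) (n : ℕ) : ℕ := ((step a.1)^[n] (0, [], a.2)).1

def cnt (a : Machine × List ℕ) (N : ℕ) : ℕ :=
  N.rec 0 fun _ k => if ∃ b ∈ a.1.1, b = st a k then k else k + 1

lemma headD_prim : Primrec fun l : List ℕ => l.headD 0 :=
  (option_getD.comp list_head? (const 0)).of_eq fun l => by cases l <;> rfl

lemma step_prim : Primrec₂ step := by
  have hr : Primrec fun z : Machine × Config =>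
      (z.1.2.getD z.2.1 []).getD (z.2.2.2.headD 0) (0, 0, 0) :=
    (list_getD _).comp ((list_getD _).comp (snd.comp fst) (fst.comp snd))
      (headD_prim.comp (snd.comp (snd.comp snd)))
  have hL : Primrec fun z : Machine × Config => z.2.2.1 := fst.comp (snd.comp snd)
  have hR : Primrec fun z : Machine × Config => z.2.2.2 := snd.comp (snd.comp snd)
  have hm := snd.comp (snd.comp hr)
  have hq := fst.comp hr
  have hs := fst.comp (snd.comp hr)
  have hw := list_cons.comp hs (list_tail.comp hR)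
  exact Primrec.ite (PrimrecRel.comp Primrec.eq hm (const 0))
    (pair hq (pair (list_tail.comp hL) (list_cons.comp (headD_prim.comp hL) hw)))
    (Primrec.ite (PrimrecRel.comp Primrec.eq hm (const 1))
      (pair hq (pair (list_cons.comp hs hL) (list_tail.comp hR)))
      (pair hq (pair hL hw)))

lemma st_prim : Primrec₂ st :=
  fst.comp (nat_iterate (h := fun (z : (Machine × List ℕ) × ℕ) c => step z.1.1 c) snd
    (pair (const 0) (pair (const []) (snd.comp fst)))
    (step_prim.comp (fst.comp (fst.comp fst)) snd).to₂)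

lemma cnt_prim : Primrec₂ cnt := by
  have h1 : PrimrecRel fun (L : List ℕ) (c : ℕ) => ∃ b ∈ L, b = c :=
    PrimrecRel.exists_mem_list Primrec.eq
  refine nat_rec (f := fun _ : Machine × List ℕ => 0)
    (g := fun a (z : ℕ × ℕ) => if ∃ b ∈ a.1.1, b = st a z.2 then z.2 else z.2 + 1) (const 0) ?_
  exact Primrec.ite (h1.comp (fst.comp (fst.comp fst)) (st_prim.comp fst (snd.comp snd)))
    (snd.comp snd) (succ.comp (snd.comp snd))

lemma cnt_spec (a : Machine × List ℕ) (N : ℕ) :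
    (∀ j < cnt a N, st a j ∉ a.1.1) ∧ (cnt a N = N ∨ st a (cnt a N) ∈ a.1.1) := by
  induction N with
  | zero => simp [cnt]
  | succ N ih =>
    have e : cnt a (N + 1) =
      if ∃ b ∈ a.1.1, b = st a (cnt a N) then cnt a N else cnt a N + 1 := rfl
    by_cases h : st a (cnt a N) ∈ a.1.1
    · rw [e, if_pos ⟨_, h, rfl⟩]
      exact ⟨ih.1, Or.inr h⟩
    · rw [e, if_neg (by rintro ⟨b, hb, rfl⟩; exact h hb)]
      refine ⟨fun j hj => ?_, Or.inl (by rw [ih.2.resolve_right h])⟩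
      rcases Nat.lt_succ_iff_lt_or_eq.1 hj with h1 | h1
      · exact ih.1 j h1
      · rw [h1]; exact h

open Classical in
noncomputable def amp (a : Machine × List ℕ) : ℝ :=
  if h : ∃ n, st a n ∈ a.1.1 then 1 / ((Nat.find h : ℝ) + 1) else 0

lemma amp_pos {a : Machine × List ℕ} (h : Halts a.1 a.2) : 0 < amp a := by
  unfold amp
  rw [dif_pos (show ∃ n, st a n ∈ a.1.1 from h)]
  positivity

lemma amp_zero {a : Machine × List ℕ} (h : ¬ Halts a.1 a.2) : amp a = 0 := by
  unfold amp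
  rw [dif_neg (show ¬ ∃ n, st a n ∈ a.1.1 from h)]

lemma amp_approx (a : Machine × List ℕ) (N : ℕ) :
    |amp a - 1 / ((cnt a N : ℝ) + 1)| ≤ 1 / ((N : ℝ) + 1) := by
  classical
  obtain ⟨h1, h2⟩ := cnt_spec a N
  by_cases h : st a (cnt a N) ∈ a.1.1
  · have h3 : ∃ n, st a n ∈ a.1.1 := ⟨_, h⟩
    unfold amp
    rw [dif_pos h3, (Nat.find_eq_iff h3).2 ⟨h, h1⟩]
    simp
    positivity
  · have h4 := h2.resolve_right h
    rw [h4] at h1 ⊢
    unfold amp
    split_ifs with h3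
    · have h5 : N ≤ Nat.find h3 := (Nat.le_find_iff h3 N).2 h1
      have h6 : (N : ℝ) ≤ Nat.find h3 := by exact_mod_cast h5
      have h7 : 1 / ((Nat.find h3 : ℝ) + 1) ≤ 1 / ((N : ℝ) + 1) :=
        one_div_le_one_div_of_le (by positivity) (by linarith)
      have h8 : 0 ≤ 1 / ((Nat.find h3 : ℝ) + 1) := by positivity
      rw [abs_le]; constructor <;> linarith
    · rw [zero_sub, abs_neg, abs_of_nonneg (by positivity)]

/-! ### derivatives of the cut-off -/

noncomputable def gm (m : ℕ) (x : ℝ) : ℝ := x⁻¹ ^ m * expNegInvGlue x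

lemma gm_deriv (m : ℕ) (x : ℝ) : HasDerivAt (gm m) (gm (m + 2) x - m * gm (m + 1) x) x := by
  have := expNegInvGlue.hasDerivAt_polynomial_eval_inv_mul (Polynomial.X ^ m) x
  simp only [Polynomial.eval_pow, Polynomial.eval_X] at this
  refine this.congr_deriv ?_
  cases m with
  | zero => simp [gm]
  | succ m => simp [gm]; ring

abbrev Poly : Type := List (ℕ × ℕ × ℕ)

noncomputable def phi (L : Poly) (t : ℝ) : ℝ :=
  (L.map fun e => ((e.1 : ℝ) - e.2.1) * gm e.2.2 (1 - t)).sum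

def dL (L : Poly) : Poly :=
  L.flatMap fun e => [(e.2.1, e.1, e.2.2 + 2), (e.1 * e.2.2, e.2.1 * e.2.2, e.2.2 + 1)]

lemma phi_deriv (L : Poly) (t : ℝ) : HasDerivAt (phi L) (phi (dL L) t) t := by
  induction L with
  | nil => exact hasDerivAt_const t (0 : ℝ)
  | cons e L ih =>
    have h1 := ((gm_deriv e.2.2 (1 - t)).comp_const_sub 1 t).const_mul ((e.1 : ℝ) - e.2.1)
    have h2 := h1.fun_add ih
    have e1 : phi (e :: L) = fun t => ((e.1 : ℝ) - e.2.1) * gm e.2.2 (1 - t) + phi L t := by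
      funext t; simp [phi]
    rw [e1]
    refine h2.congr_deriv ?_
    simp [phi, dL]
    ring

lemma dL_prim : Primrec dL := by
  refine list_flatMap .id ?_
  have ha : Primrec fun z : Poly × (ℕ × ℕ × ℕ) => z.2.1 := fst.comp snd
  have hb : Primrec fun z : Poly × (ℕ × ℕ × ℕ) => z.2.2.1 := fst.comp (snd.comp snd)
  have hm : Primrec fun z : Poly × (ℕ × ℕ × ℕ) => z.2.2.2 := snd.comp (snd.comp snd)
  exact list_cons.comp (pair hb (pair ha (nat_add.comp hm (const 2))))
    (list_cons.comp (pair (nat_mul.comp ha hm) (pair (nat_mul.comp hb hm) (succ.comp hm)))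
      (const []))

lemma pow_prim : Primrec₂ ((· ^ ·) : ℕ → ℕ → ℕ) := Primrec₂.unpaired'.1 Nat.Primrec.pow

def ev (z : (ℕ × ℕ) × Poly) : ℕ × ℕ × ℕ :=
  z.2.foldr (fun e acc => (acc.1 * z.1.2 ^ e.2.2 + e.1 * z.1.1 ^ e.2.2 * acc.2.2,
    acc.2.1 * z.1.2 ^ e.2.2 + e.2.1 * z.1.1 ^ e.2.2 * acc.2.2, acc.2.2 * z.1.2 ^ e.2.2)) (0, 0, 1)

lemma ev_prim : Primrec ev := by
  refine list_foldr (h := fun (z : (ℕ × ℕ) × Poly) (w : (ℕ × ℕ × ℕ) × (ℕ × ℕ × ℕ)) =>
    (w.2.1 * z.1.2 ^ w.1.2.2 + w.1.1 * z.1.1 ^ w.1.2.2 * w.2.2.2,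
    w.2.2.1 * z.1.2 ^ w.1.2.2 + w.1.2.1 * z.1.1 ^ w.1.2.2 * w.2.2.2,
    w.2.2.2 * z.1.2 ^ w.1.2.2)) snd (const (0, 0, 1)) ?_
  have hp : Primrec fun y : ((ℕ × ℕ) × Poly) × ((ℕ × ℕ × ℕ) × (ℕ × ℕ × ℕ)) => y.1.1.1 :=
    fst.comp (fst.comp fst)
  have hq : Primrec fun y : ((ℕ × ℕ) × Poly) × ((ℕ × ℕ × ℕ) × (ℕ × ℕ × ℕ)) => y.1.1.2 :=
    snd.comp (fst.comp fst)
  have he : Primrec fun y : ((ℕ × ℕ) × Poly) × ((ℕ × ℕ × ℕ) × (ℕ × ℕ × ℕ)) => y.2.1 :=
    fst.comp snd
  have hc : Primrec fun y : ((ℕ × ℕ) × Poly) × ((ℕ × ℕ × ℕ) × (ℕ × ℕ × ℕ)) => y.2.2 :=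
    snd.comp snd
  have hm := snd.comp (snd.comp he)
  have hqm := pow_prim.comp hq hm
  have hpm := pow_prim.comp hp hm
  have hD := snd.comp (snd.comp hc)
  exact pair (nat_add.comp (nat_mul.comp (fst.comp hc) hqm)
      (nat_mul.comp (nat_mul.comp (fst.comp he) hpm) hD))
    (pair (nat_add.comp (nat_mul.comp (fst.comp (snd.comp hc)) hqm)
      (nat_mul.comp (nat_mul.comp (fst.comp (snd.comp he)) hpm) hD)) (nat_mul.comp hD hqm))

lemma ev_spec (p q : ℕ) (hq : 0 < q) (L : Poly) :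
    0 < (ev ((p, q), L)).2.2 ∧
      (((ev ((p, q), L)).1 : ℝ) - (ev ((p, q), L)).2.1) / (ev ((p, q), L)).2.2 =
        (L.map fun e => ((e.1 : ℝ) - e.2.1) * ((p : ℝ) / q) ^ e.2.2).sum := by
  induction L with
  | nil => simp [ev]
  | cons e L ih =>
    have e1 : ev ((p, q), e :: L) =
      ((ev ((p, q), L)).1 * q ^ e.2.2 + e.1 * p ^ e.2.2 * (ev ((p, q), L)).2.2,
        (ev ((p, q), L)).2.1 * q ^ e.2.2 + e.2.1 * p ^ e.2.2 * (ev ((p, q), L)).2.2,
        (ev ((p, q), L)).2.2 * q ^ e.2.2) := rfl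
    rw [e1]
    refine ⟨Nat.mul_pos ih.1 (Nat.pow_pos hq), ?_⟩
    rw [List.map_cons, List.sum_cons, ← ih.2]
    have h1 : ((ev ((p, q), L)).2.2 : ℝ) ≠ 0 := by exact_mod_cast ih.1.ne'
    have h2 : (q : ℝ) ≠ 0 := by exact_mod_cast hq.ne'
    push_cast
    rw [div_pow]
    field_simp
    ring

lemma exp_approx (s : ℝ) (hs : 0 ≤ s) (N : ℕ) (hN : 0 < N) (hsN : s ≤ N) :
    |Real.exp (-s) - (1 - s / N) ^ N| ≤ s ^ 2 / N := by
  have hN' : (0 : ℝ) < N := by exact_mod_cast hN
  have h0 : 0 ≤ s / N := by positivity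
  have h1 : s / N ≤ 1 := (div_le_one hN').2 hsN
  have e1 : Real.exp (-s) = Real.exp (-(s / N)) ^ N := by
    rw [← Real.exp_nat_mul]; congr 1; field_simp
  rw [e1]
  refine (abs_pow_sub_pow_le ..).trans ?_
  have h2 := Real.abs_exp_sub_one_sub_id_le (x := -(s / N)) (by rw [abs_neg, abs_of_nonneg h0]; exact h1)
  have h3 : |Real.exp (-(s / N)) - (1 - s / N)| ≤ (s / N) ^ 2 := by
    rw [neg_sq] at h2
    convert h2 using 2
    ring
  have h4 : max |Real.exp (-(s / N))| |1 - s / N| ^ (N - 1) ≤ 1 := by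
    refine pow_le_one₀ (by positivity) (max_le ?_ ?_)
    · rw [abs_of_pos (Real.exp_pos _)]
      exact Real.exp_le_one_iff.2 (by linarith)
    · rw [abs_le]; constructor <;> linarith
  calc _ ≤ (s / N) ^ 2 * N * 1 := by gcongr
    _ = s ^ 2 / N := by field_simp

/-! ### the program -/

abbrev Query : Type :=
  ℕ × ℕ × (ℕ × ℕ × ℕ) × RatName × (RatName × RatName × RatName) × RatName

def L0 (z : ℕ × ℕ × ℕ × ℕ) : Poly := if z = (0, 0, 0, 0) then [(1, 0, 2)] else []

def pq (t : RatName) : ℕ × ℕ := (t.2.2 + 1, t.2.2 + 1 + t.2.1 - t.1)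

def bigN (z : (ℕ × ℕ × ℕ) × ℕ × ℕ) : ℕ :=
  (z.1.1 + z.1.2.1 + 1) * (1 + z.2.1 * z.2.1) * (z.2.2 + 1) + z.2.1

def outp (z : ((ℕ × ℕ × ℕ) × (ℕ × ℕ)) × ℕ × ℕ) : RatName :=
  (z.1.1.1 * (z.1.2.2 * z.2.1 - z.1.2.1) ^ z.2.1, z.1.1.2.1 * (z.1.2.2 * z.2.1 - z.1.2.1) ^ z.2.1,
    z.1.1.2.2 * (z.1.2.2 * z.2.1) ^ z.2.1 * (z.2.2 + 1) - 1)

def evQ (x : Query) : ℕ × ℕ × ℕ := ev (pq x.2.2.2.1, dL^[x.2.1] (L0 (x.1, x.2.2.1)))

def nQ (x : Query) : ℕ := bigN (evQ x, (pq x.2.2.2.1).1, x.2.2.2.2.2.2.2)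

def prog (z : (Machine × List ℕ) × Query) : RatName :=
  if (pq z.2.2.2.2.1).2 = 0 then (0, 0, 0)
  else outp ((evQ z.2, pq z.2.2.2.2.1), nQ z.2, cnt z.1 (nQ z.2))

lemma L0_prim : Primrec L0 :=
  Primrec.ite (PrimrecRel.comp Primrec.eq .id (const _)) (const _) (const _)

lemma pq_prim : Primrec pq :=
  pair (succ.comp (snd.comp snd))
    (nat_sub.comp (nat_add.comp (succ.comp (snd.comp snd)) (fst.comp snd)) fst)

lemma bigN_prim : Primrec bigN :=
  nat_add.comp (nat_mul.comp (nat_mul.comp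
    (succ.comp (nat_add.comp (fst.comp fst) (fst.comp (snd.comp fst))))
    (nat_add.comp (const 1) (nat_mul.comp (fst.comp snd) (fst.comp snd))))
    (succ.comp (snd.comp snd))) (fst.comp snd)

lemma outp_prim : Primrec outp := by
  have hE : Primrec fun z : ((ℕ × ℕ × ℕ) × (ℕ × ℕ)) × ℕ × ℕ => z.1.1 := fst.comp fst
  have hp : Primrec fun z : ((ℕ × ℕ × ℕ) × (ℕ × ℕ)) × ℕ × ℕ => z.1.2.1 := fst.comp (snd.comp fst)
  have hq : Primrec fun z : ((ℕ × ℕ × ℕ) × (ℕ × ℕ)) × ℕ × ℕ => z.1.2.2 := snd.comp (snd.comp fst)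
  have hN : Primrec fun z : ((ℕ × ℕ × ℕ) × (ℕ × ℕ)) × ℕ × ℕ => z.2.1 := fst.comp snd
  have hc : Primrec fun z : ((ℕ × ℕ × ℕ) × (ℕ × ℕ)) × ℕ × ℕ => z.2.2 := snd.comp snd
  have h1 := nat_mul.comp hq hN
  have h2 := pow_prim.comp (nat_sub.comp h1 hp) hN
  exact pair (nat_mul.comp (fst.comp hE) h2) (pair (nat_mul.comp (fst.comp (snd.comp hE)) h2)
    (nat_sub.comp (nat_mul.comp (nat_mul.comp (snd.comp (snd.comp hE)) (pow_prim.comp h1 hN))
      (succ.comp hc)) (const 1)))

lemma tQ_prim : Primrec fun x : Query => pq x.2.2.2.1 :=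
  pq_prim.comp (fst.comp (snd.comp (snd.comp snd)))

lemma evQ_prim : Primrec evQ :=
  ev_prim.comp (pair tQ_prim (nat_iterate (h := fun (_ : Query) L => dL L) (fst.comp snd)
    (L0_prim.comp (pair fst (fst.comp (snd.comp snd)))) (dL_prim.comp snd).to₂))

lemma nQ_prim : Primrec nQ :=
  bigN_prim.comp (pair evQ_prim (pair (fst.comp tQ_prim)
    (snd.comp (snd.comp (snd.comp (snd.comp (snd.comp (snd.comp snd))))))))

lemma prog_prim : Primrec prog :=
  Primrec.ite (PrimrecRel.comp Primrec.eq (snd.comp (tQ_prim.comp snd)) (const 0)) (const _)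
    (outp_prim.comp (pair (pair (evQ_prim.comp snd) (tQ_prim.comp snd))
      (pair (nQ_prim.comp snd) (cnt_prim.comp fst (nQ_prim.comp snd)))))

lemma mem_eval_aux {α β σ : Type} [Primcodable α] [Primcodable β] [Primcodable σ]
    (f : α × β → σ) (a : α) (x : β) : Encodable.encode (f (a, x)) ∈
      Part.bind (Encodable.decode (α := α × β) (Nat.pair (Encodable.encode a) (Encodable.encode x)))
        fun z => ((f : α × β →. σ) z).map Encodable.encode := by
  have : Nat.pair (Encodable.encode a) (Encodable.encode x) = Encodable.encode (a, x) := rfl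
  rw [this, Encodable.encodek]
  simp

theorem exists_compiler : ∃ comp : Machine × List ℕ → Nat.Partrec.Code, Computable comp ∧
    ∀ a (x : Query), Encodable.encode (prog (a, x)) ∈ (comp a).eval (Encodable.encode x) := by
  have h : Partrec (prog : (Machine × List ℕ) × Query →. RatName) := prog_prim.to_comp
  obtain ⟨c, hc⟩ := Nat.Partrec.Code.exists_code.1 h
  refine ⟨fun a => c.curry (Encodable.encode a),
    (Nat.Partrec.Code.primrec₂_curry.comp (const c) Primrec.encode).to_comp, fun a x => ?_⟩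
  rw [Nat.Partrec.Code.eval_curry, hc]
  exact mem_eval_aux prog a x

lemma prog_spec (a : Machine × List ℕ) (x : Query) (hε : 0 < val x.2.2.2.2.2) :
    |amp a * phi (dL^[x.2.1] (L0 (x.1, x.2.2.1))) (val x.2.2.2.1) - val (prog (a, x))| ≤
      val x.2.2.2.2.2 := by
  obtain ⟨i, k, β, t, y, ε⟩ := x
  obtain ⟨t1, t2, t3⟩ := t
  obtain ⟨e1, e2, e3⟩ := ε
  set L := dL^[k] (L0 (i, β)) with hL
  have hprog : prog (a, i, k, β, (t1, t2, t3), y, e1, e2, e3) =
      if t3 + 1 + t2 - t1 = 0 then (0, 0, 0) else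
        outp ((evQ (i, k, β, (t1, t2, t3), y, e1, e2, e3), t3 + 1, t3 + 1 + t2 - t1),
          nQ (i, k, β, (t1, t2, t3), y, e1, e2, e3),
          cnt a (nQ (i, k, β, (t1, t2, t3), y, e1, e2, e3))) := rfl
  rw [hprog]
  simp only at hε ⊢
  split_ifs with hq
  · have h1 : 1 - val (t1, t2, t3) ≤ 0 := by
      have : t3 + 1 + t2 ≤ t1 := by omega
      have h2 : (t3 : ℝ) + 1 + t2 ≤ t1 := by exact_mod_cast this
      simp only [val]
      rw [sub_nonpos, one_le_div (by positivity)]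
      linarith
    have h2 : phi L (val (t1, t2, t3)) = 0 := by
      simp [phi, gm, expNegInvGlue.zero_of_nonpos h1]
    rw [h2]
    simpa [val] using hε.le
  · set p := t3 + 1 with hp
    set q := p + t2 - t1 with hq'
    have hq0 : 0 < q := Nat.pos_of_ne_zero hq
    have hqR : (0 : ℝ) < q := by exact_mod_cast hq0
    have hq1 : (1 : ℝ) ≤ q := by exact_mod_cast hq0
    have hpR : (0 : ℝ) < p := by positivity
    have hr : 1 - val (t1, t2, t3) = (q : ℝ) / p := by
      have : (q : ℝ) = p + t2 - t1 := by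
        rw [hq', Nat.cast_sub (by omega)]; push_cast; ring
      rw [this]
      simp only [val, hp]
      push_cast
      field_simp
      ring
    have hev : evQ (i, k, β, (t1, t2, t3), y, e1, e2, e3) = ev ((p, q), L) := rfl
    have hnQ : nQ (i, k, β, (t1, t2, t3), y, e1, e2, e3) = bigN (ev ((p, q), L), p, e3) := rfl
    rw [hev, hnQ]
    obtain ⟨hD, hR⟩ := ev_spec p q hq0 L
    generalize ev ((p, q), L) = E at hD hR ⊢
    obtain ⟨A, B, D⟩ := E
    simp only at hD hR
    set s : ℝ := (p : ℝ) / q with hs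
    have hs0 : 0 ≤ s := by positivity
    have hsp : s ≤ p := div_le_self hpR.le hq1
    have hphi : phi L (val (t1, t2, t3)) = ((A : ℝ) - B) / D * Real.exp (-s) := by
      rw [hR, phi, hr, ← List.sum_map_mul_right]
      congr 1
      refine List.map_congr_left fun e _ => ?_
      have hpos : (0 : ℝ) < (q : ℝ) / p := by positivity
      simp only [gm, expNegInvGlue, not_le.2 hpos, if_false, inv_div, hs]
      ring
    set N := bigN ((A, B, D), p, e3) with hN
    have hNe : (N : ℝ) = (A + B + 1) * (1 + p * p) * (e3 + 1) + p := by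
      simp [hN, bigN]
    have hN0 : 0 < N := by
      have : (0 : ℝ) < N := by rw [hNe]; positivity
      exact_mod_cast this
    have hNR : (0 : ℝ) < N := by exact_mod_cast hN0
    have hpN : (p : ℝ) ≤ N := by
      rw [hNe]
      have : (0 : ℝ) ≤ (A + B + 1) * (1 + p * p) * (e3 + 1) := by positivity
      linarith
    have hpqN : p ≤ q * N := by
      have : p ≤ N := by exact_mod_cast hpN
      nlinarith
    have hDR : (1 : ℝ) ≤ D := by exact_mod_cast hD
    set c := cnt a N with hc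
    have hval : val (outp (((A, B, D), p, q), N, c)) =
        1 / ((c : ℝ) + 1) * (((A : ℝ) - B) / D) * (1 - s / N) ^ N := by
      have h1 : 1 ≤ D * (q * N) ^ N * (c + 1) := Nat.succ_le_of_lt (by positivity)
      simp only [val, outp]
      rw [Nat.cast_sub h1]
      push_cast [Nat.cast_sub hpqN]
      have h2 : 1 - s / N = (q * N - p) / (q * N) := by rw [hs]; field_simp
      rw [h2, div_pow]
      field_simp
      ring
    rw [hval, hphi]
    have b1 := amp_approx a N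
    rw [← hc] at b1
    have b2 := exp_approx s hs0 N hN0 (hsp.trans hpN)
    have b3 : |((A : ℝ) - B) / D| ≤ A + B + 1 := by
      rw [abs_div, abs_of_pos (by linarith : (0 : ℝ) < D)]
      refine (div_le_self (abs_nonneg _) hDR).trans ?_
      rw [abs_le]
      have : (0 : ℝ) ≤ A := by positivity
      have : (0 : ℝ) ≤ B := by positivity
      constructor <;> linarith
    have b4 : |Real.exp (-s)| ≤ 1 := by
      rw [abs_of_pos (Real.exp_pos _)]
      exact Real.exp_le_one_iff.2 (by linarith)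
    have b5 : |1 / ((c : ℝ) + 1)| ≤ 1 := by
      rw [abs_of_pos (by positivity), div_le_one (by positivity)]
      have : (0 : ℝ) ≤ c := by positivity
      linarith
    have b6 : 1 / ((e3 : ℝ) + 1) ≤ val (e1, e2, e3) := by
      simp only [val] at hε ⊢
      have h1 : (0 : ℝ) < (e1 : ℝ) - e2 := by
        by_contra h
        have := div_nonpos_of_nonpos_of_nonneg (not_lt.1 h) (by positivity : (0 : ℝ) ≤ e3 + 1)
        linarith
      have h2 : e2 < e1 := by exact_mod_cast sub_pos.1 h1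
      have h3 : (e2 : ℝ) + 1 ≤ e1 := by exact_mod_cast h2
      gcongr
      linarith
    refine le_trans ?_ b6
    have b7 : 1 / ((N : ℝ) + 1) ≤ 1 / N := one_div_le_one_div_of_le hNR (by linarith)
    have b8 : s ^ 2 / N ≤ p * p / N := by gcongr; nlinarith
    calc _ = |((A : ℝ) - B) / D * ((amp a - 1 / ((c : ℝ) + 1)) * Real.exp (-s)
          + 1 / ((c : ℝ) + 1) * (Real.exp (-s) - (1 - s / N) ^ N))| := by congr 1; ring
      _ ≤ (A + B + 1) * (1 / N * 1 + 1 * (p * p / N)) := by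
          rw [abs_mul]
          refine mul_le_mul b3 ((abs_add_le _ _).trans ?_) (abs_nonneg _) (by positivity)
          rw [abs_mul, abs_mul]
          exact add_le_add (mul_le_mul (b1.trans b7) b4 (abs_nonneg _) (by positivity))
            (mul_le_mul b5 (b2.trans b8) (abs_nonneg _) zero_le_one)
      _ = (A + B + 1) * (1 + p * p) / N := by field_simp
      _ ≤ 1 / ((e3 : ℝ) + 1) := by
          rw [div_le_div_iff₀ hNR (by positivity), hNe]
          linarith

end Vale.Agent.P113
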