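import Mathlib

namespace Vale.Agent.P113

open Set
open scoped ContDiff

/-- The flat torus `(ℝ/ℤ)^3`. -/
abbrev T3 : Type := Fin 3 → UnitAddCircle

/-- The covering map `ℝ^3 → (ℝ/ℤ)^3`. -/
def proj (y : Fin 3 → ℝ) : T3 := fun i => (y i : UnitAddCircle)

/-- The point `x + s e_j` of the torus. -/
noncomputable def shift (x : T3) (j : Fin 3) (s : ℝ) : T3 :=
  x + Pi.single j (s : UnitAddCircle)

/-- Spatial derivative in direction `j` of a scalar function of `(t, x)`. -/
noncomputable def dx (j : Fin 3) (F : ℝ → T3 → ℝ) : ℝ → T3 → ℝ :=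
  fun t x => deriv (fun s : ℝ => F t (shift x j s)) 0

/-- Time derivative, taken within the time interval `I` (one-sided at its end points). -/
noncomputable def dt (I : Set ℝ) (F : ℝ → T3 → ℝ) : ℝ → T3 → ℝ :=
  fun t x => derivWithin (fun s : ℝ => F s x) I t

/-- `F` is smooth on `[0, ∞) × T^3`. -/
def SmoothOn0 (F : ℝ → T3 → ℝ) : Prop :=
  ContDiffOn ℝ ∞ (fun z : ℝ × (Fin 3 → ℝ) => F z.1 (proj z.2)) (Ici 0 ×ˢ univ)

/-- `F` is continuous on `[0, T] × T^3`. -/
def ContUpTo (T : ℝ) (F : ℝ → T3 → ℝ) : Prop :=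
  ContinuousOn (fun z : ℝ × T3 => F z.1 z.2) (Icc 0 T ×ˢ univ)

/-- Classical solution `(u, p)` on `[0, T] × T^3` of the forced Navier-Stokes system from rest. -/
structure IsClassical (ν : ℝ) (f : Fin 3 → ℝ → T3 → ℝ) (T : ℝ)
    (u : Fin 3 → ℝ → T3 → ℝ) (p : ℝ → T3 → ℝ) : Prop where
  diff_t : ∀ i, ∀ t ∈ Icc 0 T, ∀ x, DifferentiableWithinAt ℝ (fun s : ℝ => u i s x) (Icc 0 T) t
  diff_x : ∀ i j, ∀ t ∈ Icc 0 T, ∀ x, DifferentiableAt ℝ (fun s : ℝ => u i t (shift x j s)) 0
  diff_xx : ∀ i j k, ∀ t ∈ Icc 0 T, ∀ x,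
    DifferentiableAt ℝ (fun s : ℝ => dx j (u i) t (shift x k s)) 0
  diff_p : ∀ j, ∀ t ∈ Icc 0 T, ∀ x, DifferentiableAt ℝ (fun s : ℝ => p t (shift x j s)) 0
  cont_u : ∀ i, ContUpTo T (u i)
  cont_t : ∀ i, ContUpTo T (dt (Icc 0 T) (u i))
  cont_x : ∀ i j, ContUpTo T (dx j (u i))
  cont_xx : ∀ i j k, ContUpTo T (dx k (dx j (u i)))
  cont_p : ContUpTo T p
  cont_px : ∀ j, ContUpTo T (dx j p)
  momentum : ∀ i, ∀ t ∈ Icc 0 T, ∀ x,
    dt (Icc 0 T) (u i) t x + ∑ j, u j t x * dx j (u i) t x =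
      -dx i p t x + ν * ∑ j, dx j (dx j (u i)) t x + f i t x
  div_free : ∀ t ∈ Icc 0 T, ∀ x, ∑ j, dx j (u j) t x = 0
  rest : ∀ i x, u i 0 x = 0
  mean_zero : ∀ t ∈ Icc 0 T, ∫ x, p t x = 0

/-- `Y : [0, ∞) → ℝ^3` is a lift of a particle trajectory `X = proj ∘ Y` of `u` starting at `a`. -/
def IsTrajectory (u : Fin 3 → ℝ → T3 → ℝ) (a : T3) (Y : ℝ → Fin 3 → ℝ) : Prop :=
  proj (Y 0) = a ∧
    ∀ t, 0 ≤ t → ∀ i, HasDerivWithinAt (fun s => Y s i) (u i t (proj (Y t))) (Ici 0) t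

/-- A machine: the list of halting states and the finite transition table.  States and symbols are
natural numbers, `0` is the initial state and `0` is the blank.  Entry `(q, s)` of the table is
`(new state, written symbol, move)`, with move `0` left, `1` right, anything else no move. -/
abbrev Machine : Type := List ℕ × List (List (ℕ × ℕ × ℕ))

/-- A configuration: state, cells left of the head (nearest first), cells from the head to the
right.  All further cells are blank. -/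
abbrev Config : Type := ℕ × List ℕ × List ℕ

/-- One step of the machine. -/
def step (M : Machine) (c : Config) : Config :=
  let r := (M.2.getD c.1 []).getD (c.2.2.headD 0) (0, 0, 0)
  if r.2.2 = 0 then (r.1, c.2.1.tail, c.2.1.headD 0 :: r.2.1 :: c.2.2.tail)
  else if r.2.2 = 1 then (r.1, r.2.1 :: c.2.1, c.2.2.tail)
  else (r.1, c.2.1, r.2.1 :: c.2.2.tail)

/-- `M` reaches a halting state on input `w` after finitely many steps, possibly none. -/
def Halts (M : Machine) (w : List ℕ) : Prop :=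
  ∃ n : ℕ, ((step M)^[n] (0, [], w)).1 ∈ M.1

/-- Names of rational numbers. -/
abbrev RatName : Type := ℕ × ℕ × ℕ

/-- `(a, b, c)` names the rational number `(a - b) / (c + 1)`. -/
noncomputable def val (q : RatName) : ℝ := ((q.1 : ℝ) - (q.2.1 : ℝ)) / ((q.2.2 : ℝ) + 1)

/-- Computable real numbers. -/
def ComputableReal (ν : ℝ) : Prop :=
  ∃ g : ℕ → RatName, Computable g ∧ ∀ k : ℕ, |ν - val (g k)| ≤ 1 / 2 ^ k

/-- The mixed derivative of order `k` in time and of orders `β` in space on `[0, ∞) × T^3`. -/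
noncomputable def mixed (k : ℕ) (β : Fin 3 → ℕ) (F : ℝ → T3 → ℝ) : ℝ → T3 → ℝ :=
  (dt (Ici 0))^[k] ((dx 0)^[β 0] ((dx 1)^[β 1] ((dx 2)^[β 2] F)))

/-- The program `c`, given a component `i`, derivative orders `(k, β)`, a rational point `(t, y)`
with `t ≥ 0` and a rational accuracy `ε > 0`, halts and returns a rational number within `ε` of
that mixed derivative of `f i` at that point. -/
def Computes (c : Nat.Partrec.Code) (f : Fin 3 → ℝ → T3 → ℝ) : Prop :=
  ∀ (i : Fin 3) (k : ℕ) (β : Fin 3 → ℕ) (t : RatName) (y : Fin 3 → RatName) (ε : RatName),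
    0 ≤ val t → 0 < val ε →
      ∃ o : RatName, Encodable.encode o ∈
          c.eval (Encodable.encode (i.val, k, (β 0, β 1, β 2), t, (y 0, y 1, y 2), ε)) ∧
        |mixed k β (f i) (val t) (proj fun j => val (y j)) - val o| ≤ val ε

end Vale.Agent.P113
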