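import Vale.Agent.P113.Defs

namespace Vale.Agent.P113

open Set MeasureTheory

lemma shift_shift (x : T3) (j : Fin 3) (s h : ℝ) : shift (shift x j s) j h = shift x j (s + h) := by
  simp [shift, add_assoc, Pi.single_add]

lemma shift_zero (x : T3) (j : Fin 3) : shift x j 0 = x := by simp [shift]

lemma shift_one (x : T3) (j : Fin 3) : shift x j 1 = x := by
  have : ((1 : ℝ) : UnitAddCircle) = 0 := AddCircle.coe_period 1
  simp [shift, this]

lemma cont_shift (j : Fin 3) : Continuous fun z : ℝ × T3 => shift z.2 j z.1 := by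
  unfold shift
  refine continuous_snd.add ?_
  exact (continuous_single j).comp ((AddCircle.continuous_mk' 1).comp continuous_fst)

lemma integrable_of_cont {T t : ℝ} (ht : t ∈ Icc 0 T) {H : ℝ → T3 → ℝ} (hH : ContUpTo T H) :
    Integrable (Function.uncurry H) ((volume.restrict (uIoc 0 t)).prod volume) := by
  rw [Measure.restrict_prod_eq_prod_univ]
  have h1 : IntegrableOn (Function.uncurry H) (Icc 0 T ×ˢ univ) (volume.prod volume) :=
    ContinuousOn.integrableOn_compact (isCompact_Icc.prod isCompact_univ) hH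
  refine h1.mono_set (Set.prod_mono ?_ subset_rfl)
  rw [uIoc_of_le ht.1]
  exact fun s hs => ⟨hs.1.le, hs.2.trans ht.2⟩

lemma deriv_shift {F G : T3 → ℝ} {j : Fin 3}
    (h : ∀ x, HasDerivAt (fun s : ℝ => F (shift x j s)) (G x) 0) (x : T3) (s : ℝ) :
    HasDerivAt (fun s : ℝ => F (shift x j s)) (G (shift x j s)) s := by
  have h1 := h (shift x j s)
  simp only [shift_shift] at h1
  have h2 : HasDerivAt (fun r : ℝ => F (shift x j (s + r))) (G (shift x j s)) (s - s) := by
    simpa using h1
  have h3 := h2.comp_sub_const s s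
  simpa using h3

lemma integral_div {F G : T3 → ℝ} {j : Fin 3} (hG : Continuous G)
    (h : ∀ x, HasDerivAt (fun s : ℝ => F (shift x j s)) (G x) 0) : ∫ x, G x = 0 := by
  have hc : Continuous fun z : ℝ × T3 => G (shift z.2 j z.1) := hG.comp (cont_shift j)
  have h1 : ∀ x, ∫ s in (0 : ℝ)..1, G (shift x j s) = 0 := by
    intro x
    rw [intervalIntegral.integral_eq_sub_of_hasDerivAt (fun s _ => deriv_shift h x s)]
    · rw [shift_one, shift_zero, sub_self]
    · exact (hc.comp (continuous_id.prodMk continuous_const)).intervalIntegrable _ _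
  have h2 := intervalIntegral_integral_swap (μ := volume) (a := 0) (b := 1)
    (f := fun s x => G (shift x j s))
    (integrable_of_cont (T := 1) ⟨zero_le_one, le_rfl⟩ hc.continuousOn)
  simp only [h1, integral_zero] at h2
  have h3 : ∀ s, ∫ x, G (shift x j s) = ∫ x, G x := fun s =>
    integral_add_right_eq_self (μ := (volume : Measure T3)) G _
  simpa [h3] using h2

lemma ContUpTo.slice {T t : ℝ} {H : ℝ → T3 → ℝ} (hH : ContUpTo T H) (ht : t ∈ Icc 0 T) :
    Continuous (H t) := by
  have : ContinuousOn (fun x : T3 => H t x) univ :=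
    ContinuousOn.comp (f := fun x : T3 => (t, x)) (g := fun z : ℝ × T3 => H z.1 z.2) hH
      (continuous_const.prodMk continuous_id).continuousOn (fun x _ => ⟨ht, trivial⟩)
  exact continuousOn_univ.1 this

lemma ContUpTo.tslice {T : ℝ} {H : ℝ → T3 → ℝ} (hH : ContUpTo T H) (x : T3) :
    ContinuousOn (fun s => H s x) (Icc 0 T) :=
  ContinuousOn.comp hH (continuous_id.prodMk continuous_const).continuousOn
    (fun _ hs => ⟨hs, trivial⟩)

lemma cont_integrable {G : T3 → ℝ} (hG : Continuous G) : Integrable G :=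
  hG.integrable_of_hasCompactSupport (HasCompactSupport.of_compactSpace G)

theorem unique_vel {ν T : ℝ} (hν : 0 ≤ ν) {U F : Fin 3 → ℝ → ℝ}
    (hU : ∀ i t, HasDerivAt (U i) (F i t) t) (hF : ∀ i, Continuous (F i)) (hU0 : ∀ i, U i 0 = 0)
    {v : Fin 3 → ℝ → T3 → ℝ} {q : ℝ → T3 → ℝ}
    (h : IsClassical ν (fun i t _ => F i t) T v q) :
    ∀ t ∈ Icc 0 T, ∀ x i, v i t x = U i t := by
  have hUc : ∀ i, Continuous (U i) := fun i =>
    continuous_iff_continuousAt.2 fun t => (hU i t).continuousAt
  set e' : ℝ → T3 → ℝ := fun t x =>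
    ∑ i, 2 * (v i t x - U i t) * (dt (Icc 0 T) (v i) t x - F i t) with he'
  have he'c : ContUpTo T e' := by
    unfold ContUpTo
    refine continuousOn_finsetSum _ fun i _ => ?_
    exact (continuousOn_const.mul ((h.cont_u i).sub
      ((hUc i).comp continuous_fst).continuousOn)).mul
      ((h.cont_t i).sub ((hF i).comp continuous_fst).continuousOn)
  have hneg : ∀ t ∈ Icc 0 T, ∫ x, e' t x ≤ 0 := by
    intro t ht
    let G : Fin 3 → T3 → ℝ := fun j x =>
      -(dx j (v j) t x * (∑ i, (v i t x - U i t) ^ 2)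
          + v j t x * ∑ i, 2 * (v i t x - U i t) * dx j (v i) t x)
        - 2 * (dx j (v j) t x * q t x + (v j t x - U j t) * dx j q t x)
        + 2 * ν * ∑ i, (dx j (v i) t x * dx j (v i) t x
          + (v i t x - U i t) * dx j (dx j (v i)) t x)
    have c1 := fun i => (h.cont_u i).slice ht
    have c2 := fun i j => (h.cont_x i j).slice ht
    have c3 := fun i j k => (h.cont_xx i j k).slice ht
    have c4 := h.cont_p.slice ht
    have c5 := fun j => (h.cont_px j).slice ht
    have hGc : ∀ j, Continuous (G j) := by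
      intro j
      simp only [G]
      fun_prop
    have hG0 : ∀ j, ∫ x, G j x = 0 := by
      intro j
      refine integral_div (j := j) (F := fun x =>
        -(v j t x * ∑ i, (v i t x - U i t) ^ 2) - 2 * ((v j t x - U j t) * q t x)
          + 2 * ν * ∑ i, (v i t x - U i t) * dx j (v i) t x) (hGc j) fun x => ?_
      have d1 : ∀ i, HasDerivAt (fun s : ℝ => v i t (shift x j s)) (dx j (v i) t x) 0 :=
        fun i => (h.diff_x i j t ht x).hasDerivAt
      have d2 : ∀ i, HasDerivAt (fun s : ℝ => dx j (v i) t (shift x j s))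
          (dx j (dx j (v i)) t x) 0 := fun i => (h.diff_xx i j j t ht x).hasDerivAt
      have d3 : HasDerivAt (fun s : ℝ => q t (shift x j s)) (dx j q t x) 0 :=
        (h.diff_p j t ht x).hasDerivAt
      have d4 := HasDerivAt.fun_sum (u := Finset.univ)
        (fun i _ => ((d1 i).sub_const (U i t)).fun_pow 2)
      have d5 := HasDerivAt.fun_sum (u := Finset.univ)
        (fun i _ => ((d1 i).sub_const (U i t)).fun_mul (d2 i))
      have d6 := ((((d1 j).fun_mul d4).fun_neg).fun_sub
        ((((d1 j).sub_const (U j t)).fun_mul d3).const_mul 2)).fun_add (d5.const_mul (2 * ν))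
      refine d6.congr_deriv ?_
      simp [G, shift_zero]
    have hle : ∀ x, e' t x ≤ ∑ j, G j x := by
      intro x
      have m := fun i => h.momentum i t ht x
      have dv := h.div_free t ht x
      have m0 := m 0
      have m1 := m 1
      have m2 := m 2
      simp only [Fin.sum_univ_three] at m0 m1 m2 dv
      simp only [he', G, Fin.sum_univ_three]
      have e0 := sub_eq_of_eq_add' (sub_eq_of_eq_add m0).symm
      have k0 : dt (Icc 0 T) (v 0) t x - F 0 t = -dx 0 q t x + ν * (dx 0 (dx 0 (v 0)) t x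
        + dx 1 (dx 1 (v 0)) t x + dx 2 (dx 2 (v 0)) t x) - (v 0 t x * dx 0 (v 0) t x
        + v 1 t x * dx 1 (v 0) t x + v 2 t x * dx 2 (v 0) t x) := by linarith
      have k1 : dt (Icc 0 T) (v 1) t x - F 1 t = -dx 1 q t x + ν * (dx 0 (dx 0 (v 1)) t x
        + dx 1 (dx 1 (v 1)) t x + dx 2 (dx 2 (v 1)) t x) - (v 0 t x * dx 0 (v 1) t x
        + v 1 t x * dx 1 (v 1) t x + v 2 t x * dx 2 (v 1) t x) := by linarith
      have k2 : dt (Icc 0 T) (v 2) t x - F 2 t = -dx 2 q t x + ν * (dx 0 (dx 0 (v 2)) t x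
        + dx 1 (dx 1 (v 2)) t x + dx 2 (dx 2 (v 2)) t x) - (v 0 t x * dx 0 (v 2) t x
        + v 1 t x * dx 1 (v 2) t x + v 2 t x * dx 2 (v 2) t x) := by linarith
      have k3 : dx 2 (v 2) t x = -dx 0 (v 0) t x - dx 1 (v 1) t x := by linarith
      rw [k0, k1, k2]
      have pos : 0 ≤ 2 * ν * (dx 0 (v 0) t x ^ 2 + dx 0 (v 1) t x ^ 2 + dx 0 (v 2) t x ^ 2
        + dx 1 (v 0) t x ^ 2 + dx 1 (v 1) t x ^ 2 + dx 1 (v 2) t x ^ 2
        + dx 2 (v 0) t x ^ 2 + dx 2 (v 1) t x ^ 2 + dx 2 (v 2) t x ^ 2) := by positivity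
      rw [← sub_nonneg]
      refine pos.trans (le_of_eq ?_)
      rw [k3]
      ring
    calc ∫ x, e' t x ≤ ∫ x, ∑ j, G j x :=
          integral_mono (cont_integrable (he'c.slice ht))
            (cont_integrable (continuous_finsetSum _ fun j _ => hGc j)) hle
      _ = 0 := by
          rw [integral_finsetSum _ fun j _ => cont_integrable (hGc j)]
          simp [hG0]
  intro t ht
  have hftc : ∀ x, ∫ s in (0 : ℝ)..t, e' s x = ∑ i, (v i t x - U i t) ^ 2 := by
    intro x
    have hsub : Icc 0 t ⊆ Icc 0 T := Icc_subset_Icc_right ht.2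
    rw [intervalIntegral.integral_eq_sub_of_hasDerivAt_of_le
      (f := fun s => ∑ i, (v i s x - U i s) ^ 2) ht.1]
    · simp [h.rest, hU0]
    · refine continuousOn_finsetSum _ fun i _ => ?_
      exact ((((h.cont_u i).tslice x).mono hsub).sub (hUc i).continuousOn).pow 2
    · intro s hs
      have hs' : s ∈ Icc 0 T := ⟨hs.1.le, hs.2.le.trans ht.2⟩
      have d1 : ∀ i, HasDerivAt (fun s => v i s x) (dt (Icc 0 T) (v i) s x) s := fun i =>
        (h.diff_t i s hs' x).hasDerivWithinAt.hasDerivAt (Icc_mem_nhds hs.1 (hs.2.trans_le ht.2))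
      have d2 := HasDerivAt.fun_sum (u := Finset.univ)
        (fun i _ => ((d1 i).fun_sub (hU i s)).fun_pow 2)
      convert d2 using 1
      simp [he']
    · refine ContinuousOn.intervalIntegrable ?_
      rw [uIcc_of_le ht.1]
      exact (he'c.tslice x).mono hsub
  have hsw := intervalIntegral_integral_swap (μ := volume) (a := 0) (b := t) (f := e')
    (integrable_of_cont ht he'c)
  simp only [hftc] at hsw
  have hle : ∫ x, ∑ i, (v i t x - U i t) ^ 2 ≤ 0 := by
    rw [← hsw, ← neg_nonneg, ← intervalIntegral.integral_neg]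
    refine intervalIntegral.integral_nonneg ht.1 fun s hs => ?_
    exact neg_nonneg.2 (hneg s ⟨hs.1, hs.2.trans ht.2⟩)
  have hc : Continuous fun x => ∑ i, (v i t x - U i t) ^ 2 := by
    have c1 := fun i => (h.cont_u i).slice ht
    fun_prop
  have hnn : ∀ x, 0 ≤ ∑ i, (v i t x - U i t) ^ 2 := fun x => by positivity
  have h0 : ∫ x, ∑ i, (v i t x - U i t) ^ 2 = 0 := le_antisymm hle (integral_nonneg hnn)
  rw [integral_eq_zero_iff_of_nonneg hnn (cont_integrable hc),
    Continuous.ae_eq_iff_eq volume hc continuous_zero] at h0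
  intro x i
  have h1 : ∑ i, (v i t x - U i t) ^ 2 = 0 := congrFun h0 x
  rw [Finset.sum_eq_zero_iff_of_nonneg fun _ _ => sq_nonneg _] at h1
  have := h1 i (Finset.mem_univ i)
  exact sub_eq_zero.1 (pow_eq_zero_iff two_ne_zero |>.1 this)

theorem unique_press {ν T : ℝ} (hν : 0 ≤ ν) (hT : 0 < T) {U F : Fin 3 → ℝ → ℝ}
    (hU : ∀ i t, HasDerivAt (U i) (F i t) t) (hF : ∀ i, Continuous (F i)) (hU0 : ∀ i, U i 0 = 0)
    {v : Fin 3 → ℝ → T3 → ℝ} {q : ℝ → T3 → ℝ}
    (h : IsClassical ν (fun i t _ => F i t) T v q) :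
    ∀ t ∈ Icc 0 T, ∀ x, q t x = 0 := by
  have hv := unique_vel hν hU hF hU0 h
  intro t ht
  have h1 : ∀ i j x, dx j (v i) t x = 0 := by
    intro i j x
    simp [dx, hv t ht]
  have h2 : ∀ i j x, dx j (dx j (v i)) t x = 0 := by
    intro i j x
    rw [dx]
    simp [h1]
  have h3 : ∀ i x, dt (Icc 0 T) (v i) t x = F i t := by
    intro i x
    have : HasDerivWithinAt (fun s => v i s x) (F i t) (Icc 0 T) t :=
      (hU i t).hasDerivWithinAt.congr (fun s hs => hv s hs x i) (hv t ht x i)
    exact this.derivWithin (uniqueDiffOn_Icc hT t ht)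
  have h4 : ∀ j x, HasDerivAt (fun s : ℝ => q t (shift x j s)) 0 0 := by
    intro j x
    have m := h.momentum j t ht x
    simp only [h1, h2, h3] at m
    have : dx j q t x = 0 := by simpa using m
    exact (h.diff_p j t ht x).hasDerivAt.congr_deriv this
  have h5 : ∀ j x s, q t (shift x j s) = q t x := by
    intro j x s
    have d := fun s => deriv_shift (F := q t) (G := fun _ => 0) (h4 j) x s
    have := is_const_of_deriv_eq_zero (f := fun s : ℝ => q t (shift x j s))
      (fun s => (d s).differentiableAt) (fun s => (d s).deriv) s 0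
    simpa [shift_zero] using this
  have h6 : ∀ x y, q t y = q t x := by
    intro x y
    obtain ⟨a, ha⟩ := QuotientAddGroup.mk_surjective (y 0 - x 0)
    obtain ⟨b, hb⟩ := QuotientAddGroup.mk_surjective (y 1 - x 1)
    obtain ⟨c, hc⟩ := QuotientAddGroup.mk_surjective (y 2 - x 2)
    have : y = shift (shift (shift x 0 a) 1 b) 2 c := by
      funext i
      fin_cases i <;> simp [shift, ha, hb, hc]
    rw [this, h5, h5, h5]
  intro x
  have m := h.mean_zero t ht
  have : (fun y => q t y) = fun _ => q t x := funext fun y => h6 x y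
  rw [this, integral_const] at m
  have hvol : (volume : Measure T3).real univ = 1 := by
    rw [Measure.real, volume_pi, Measure.pi_univ]
    simp
  simpa [hvol] using m

end Vale.Agent.P113
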