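import Vale.Agent.P113.Comp

namespace Vale.Agent.P113

open Set MeasureTheory
open scoped ContDiff

def cst (φ : ℝ → ℝ) : ℝ → T3 → ℝ := fun t _ => φ t

lemma dx_cst (j : Fin 3) (φ : ℝ → ℝ) : dx j (cst φ) = cst 0 := by
  funext t x; simp [dx, cst]

lemma dx_iter (j : Fin 3) (n : ℕ) (φ : ℝ → ℝ) :
    (dx j)^[n] (cst φ) = cst (if n = 0 then φ else 0) := by
  induction n with
  | zero => simp
  | succ n ih => rw [Function.iterate_succ_apply', ih, dx_cst]; simp

lemma dt_iter (c : ℝ) (k : ℕ) (L : Poly) (x : T3) : ∀ t, 0 ≤ t →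
    (dt (Ici 0))^[k] (cst fun t => c * phi L t) t x = c * phi (dL^[k] L) t := by
  induction k with
  | zero => intro t _; rfl
  | succ k ih =>
    intro t ht
    rw [Function.iterate_succ_apply', Function.iterate_succ_apply', dt]
    have : HasDerivWithinAt (fun s => (dt (Ici 0))^[k] (cst fun t => c * phi L t) s x)
        (c * phi (dL (dL^[k] L)) t) (Ici 0) t :=
      ((phi_deriv _ t).const_mul c).hasDerivWithinAt.congr (fun s hs => ih s hs) (ih t ht)
    exact this.derivWithin (uniqueDiffOn_Ici 0 t ht)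

noncomputable def force (a : Machine × List ℕ) (i : Fin 3) (t : ℝ) : ℝ :=
  amp a * phi (L0 (i.val, 0, 0, 0)) t

noncomputable def vel (a : Machine × List ℕ) (i : Fin 3) (t : ℝ) : ℝ :=
  if i = 0 then amp a * (expNegInvGlue 1 - expNegInvGlue (1 - t)) else 0

lemma force_eq (a : Machine × List ℕ) (i : Fin 3) (t : ℝ) :
    force a i t = if i = 0 then amp a * gm 2 (1 - t) else 0 := by
  fin_cases i <;> simp [force, L0, phi]

lemma vel_deriv (a : Machine × List ℕ) (i : Fin 3) (t : ℝ) :
    HasDerivAt (vel a i) (force a i t) t := by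
  rw [force_eq]
  unfold vel
  split_ifs
  · have h := (((gm_deriv 0 (1 - t)).comp_const_sub 1 t).const_sub (expNegInvGlue 1)).const_mul
      (amp a)
    simp only [gm, pow_zero, one_mul] at h
    refine h.congr_deriv ?_
    simp [gm]
  · exact hasDerivAt_const _ _

lemma vel_smooth (a : Machine × List ℕ) (i : Fin 3) : ContDiff ℝ ∞ (vel a i) := by
  unfold vel
  split_ifs
  · exact contDiff_const.mul (contDiff_const.sub
      (expNegInvGlue.contDiff.comp (contDiff_const.sub contDiff_id)))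
  · exact contDiff_const

lemma force_smooth (a : Machine × List ℕ) (i : Fin 3) : ContDiff ℝ ∞ (force a i) := by
  have : force a i = deriv (vel a i) := funext fun t => (vel_deriv a i t).deriv.symm
  rw [this]
  exact (contDiff_infty_iff_deriv.1 (vel_smooth a i)).2

lemma smooth_cst {φ : ℝ → ℝ} (h : ContDiff ℝ ∞ φ) : SmoothOn0 (cst φ) :=
  (h.comp contDiff_fst).contDiffOn

lemma cont_cst {φ : ℝ → ℝ} (h : Continuous φ) (T : ℝ) : ContUpTo T (cst φ) :=
  (h.comp continuous_fst).continuousOn

lemma mixed_force (a : Machine × List ℕ) (i : Fin 3) (k : ℕ) (β : Fin 3 → ℕ) (t : ℝ) (ht : 0 ≤ t)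
    (x : T3) : mixed k β (cst (force a i)) t x =
      amp a * phi (dL^[k] (L0 (i.val, β 0, β 1, β 2))) t := by
  rw [mixed, dx_iter, dx_iter, dx_iter, ← dt_iter _ _ _ x t ht]
  have : (if β 0 = 0 then if β 1 = 0 then if β 2 = 0 then force a i else 0 else 0 else 0) =
      fun t => amp a * phi (L0 (i.val, β 0, β 1, β 2)) t := by
    funext s
    by_cases h0 : β 0 = 0 <;> by_cases h1 : β 1 = 0 <;> by_cases h2 : β 2 = 0 <;>
      simp [h0, h1, h2, force, L0, phi]
  rw [this]

lemma classical_vel (ν : ℝ) (a : Machine × List ℕ) {T : ℝ} (hT : 0 < T) :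
    IsClassical ν (fun i => cst (force a i)) T (fun i => cst (vel a i)) (cst 0) := by
  have hdt : ∀ i, ∀ t ∈ Icc 0 T, ∀ x, dt (Icc 0 T) (cst (vel a i)) t x = force a i t :=
    fun i t ht x => (vel_deriv a i t).hasDerivWithinAt.derivWithin (uniqueDiffOn_Icc hT t ht)
  refine ⟨fun i t _ x => (vel_deriv a i t).differentiableAt.differentiableWithinAt,
    fun i j t _ x => differentiableAt_const _, fun i j k t _ x => ?_,
    fun j t _ x => differentiableAt_const _, fun i => cont_cst (vel_smooth a i).continuous T,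
    fun i => ?_, fun i j => ?_, fun i j k => ?_, cont_cst continuous_zero T, fun j => ?_,
    fun i t ht x => ?_, fun t ht x => ?_, fun i x => ?_, fun t ht => ?_⟩
  · rw [dx_cst]; exact differentiableAt_const _
  · exact (cont_cst (force_smooth a i).continuous T).congr fun z hz => hdt i z.1 hz.1 z.2
  · rw [dx_cst]; exact cont_cst continuous_zero T
  · rw [dx_cst, dx_cst]; exact cont_cst continuous_zero T
  · rw [dx_cst]; exact cont_cst continuous_zero T
  · rw [hdt i t ht]
    simp only [dx_cst]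
    simp [cst]
  · simp only [dx_cst]
    simp [cst]
  · simp [cst, vel]
  · simp [cst]

lemma const_of_deriv {Z : ℝ → ℝ} {b : ℝ} (hb : 0 ≤ b)
    (h : ∀ t, b ≤ t → HasDerivWithinAt Z 0 (Ici 0) t) (t : ℝ) (ht : b ≤ t) : Z t = Z b := by
  refine constant_of_has_deriv_right_zero (f := Z) (a := b) (b := t) (fun s hs => ?_)
    (fun s hs => ?_) t ⟨ht, le_rfl⟩
  · exact (h s hs.1).continuousWithinAt.mono fun r hr => hb.trans hr.1
  · exact (h s hs.1).mono (Ici_subset_Ici.2 (hb.trans hs.1))

theorem main (ν : ℝ) (hν : 0 < ν) :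
    ∃ (a : T3) (O : Set T3), IsOpen O ∧
      ∃ (comp : Machine × List ℕ → Nat.Partrec.Code)
        (f : Machine → List ℕ → Fin 3 → ℝ → T3 → ℝ) (T₀ : ℝ),
        Computable comp ∧ 0 ≤ T₀ ∧
        (∀ M w, (∀ i, SmoothOn0 (f M w i)) ∧ Computes (comp (M, w)) (f M w)) ∧
        (∀ M, ∃ (P : ℝ) (F : Fin 3 → ℝ → T3 → ℝ), 0 < P ∧
          ∀ i t x, T₀ ≤ t → F i (t + P) x = F i t x ∧ ∀ w, f M w i t x = F i t x) ∧
        ∀ M w, ∃ (u : Fin 3 → ℝ → T3 → ℝ) (p : ℝ → T3 → ℝ),
          (∀ i, SmoothOn0 (u i)) ∧ SmoothOn0 p ∧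
          (∀ T, 0 < T → IsClassical ν (f M w) T u p ∧
            ∀ v q, IsClassical ν (f M w) T v q →
              ∀ t ∈ Icc 0 T, ∀ x, (∀ i, v i t x = u i t x) ∧ q t x = p t x) ∧
          (∃ Y, IsTrajectory u a Y) ∧
          ∀ Y, IsTrajectory u a Y → ((∃ t, 0 ≤ t ∧ proj (Y t) ∈ O) ↔ Halts M w) := by
  obtain ⟨comp, hcomp, hev⟩ := exists_compiler
  refine ⟨0, {x | x 0 ≠ 0}, isOpen_ne_fun (continuous_apply 0) continuous_const, comp,
    fun M w i => cst (force (M, w) i), 1, hcomp, zero_le_one, fun M w => ⟨fun i =>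
      smooth_cst (force_smooth _ i), ?_⟩, fun M => ⟨1, fun _ _ _ => 0, one_pos, ?_⟩,
    fun M w => ⟨fun i => cst (vel (M, w) i), cst 0, fun i => smooth_cst (vel_smooth _ i),
      smooth_cst contDiff_const, fun T hT => ⟨classical_vel ν _ hT, fun v q h t ht x => ⟨fun i => ?_, ?_⟩⟩,
      ?_, ?_⟩⟩
  · intro i k β t y ε ht hε
    refine ⟨_, hev (M, w) (i.val, k, (β 0, β 1, β 2), t, (y 0, y 1, y 2), ε), ?_⟩
    rw [mixed_force _ _ _ _ _ ht]
    exact prog_spec (M, w) (i.val, k, (β 0, β 1, β 2), t, (y 0, y 1, y 2), ε) hε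
  · intro i t x ht
    refine ⟨rfl, fun w => ?_⟩
    simp [cst, force_eq, gm, expNegInvGlue.zero_of_nonpos (sub_nonpos.2 ht)]
  · exact unique_vel hν.le (vel_deriv (M, w)) (fun i => (force_smooth _ i).continuous)
      (fun i => by simp [vel]) h t ht x i
  · exact unique_press hν.le hT (vel_deriv (M, w)) (fun i => (force_smooth _ i).continuous)
      (fun i => by simp [vel]) h t ht x
  · refine ⟨fun t i => ∫ s in (0 : ℝ)..t, vel (M, w) i s, ?_, fun t _ i => ?_⟩
    · funext i; simp [proj]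
    · exact ((vel_smooth (M, w) i).continuous.integral_hasStrictDerivAt 0
        t).hasDerivAt.hasDerivWithinAt
  · rintro Y ⟨hY0, hY⟩
    constructor
    · rintro ⟨t, ht, hO⟩
      by_contra hn
      apply hO
      have h1 := const_of_deriv (Z := fun s => Y s 0) le_rfl (fun s hs => by
        have := hY s hs 0
        simpa [cst, vel, amp_zero (a := (M, w)) hn] using this) t ht
      have h2 := congrFun hY0 0
      simp only [proj] at h2 ⊢
      rw [h1]; exact h2
    · intro hh
      have hc : 0 < amp (M, w) * expNegInvGlue 1 :=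
        mul_pos (amp_pos (a := (M, w)) hh) (expNegInvGlue.pos_of_pos one_pos)
      set c := amp (M, w) * expNegInvGlue 1 with hcdef
      have h1 := const_of_deriv (Z := fun s => Y s 0 - c * s) zero_le_one (fun s hs => by
        have h2 := (hY s (zero_le_one.trans hs) 0).fun_sub
          ((hasDerivAt_id s).const_mul c).hasDerivWithinAt
        refine h2.congr_deriv ?_
        simp [cst, vel, hcdef, expNegInvGlue.zero_of_nonpos (sub_nonpos.2 hs)]) (1 + 1 / (2 * c))
        (le_add_of_nonneg_right (by positivity))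
      have h3 : Y (1 + 1 / (2 * c)) 0 = Y 1 0 + 1 / 2 := by
        have : c * (1 + 1 / (2 * c)) = c + 1 / 2 := by field_simp
        linarith
      by_contra hn
      have a1 : proj (Y 1) 0 = 0 := by
        by_contra h; exact hn ⟨1, zero_le_one, h⟩
      have a2 : proj (Y (1 + 1 / (2 * c))) 0 = 0 := by
        by_contra h; exact hn ⟨_, by positivity, h⟩
      simp only [proj] at a1 a2
      rw [h3, AddCircle.coe_add, a1, zero_add, AddCircle.coe_eq_zero_iff] at a2
      obtain ⟨n, hn⟩ := a2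
      have : (2 * n : ℝ) = 1 := by simp at hn; linarith
      have : (2 * n : ℤ) = 1 := by exact_mod_cast this
      omega

end Vale.Agent.P113
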